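import Vale.Agent.P204.DC.Stmt
import Mathlib.Analysis.Normed.Module.ContinuousInverse
import Mathlib.Analysis.Analytic.CPolynomial
import Mathlib.Analysis.Calculus.DifferentialForm.VectorField
import Mathlib.Geometry.Manifold.MFDeriv.Atlas
import Mathlib.Geometry.Manifold.ContMDiff.Atlas
import Mathlib.Geometry.Manifold.MFDeriv.FDeriv

/-!
# P204W88: change of charts for two-forms and endomorphism fields
-/

set_option linter.unusedSectionVars false

open scoped Manifold ContDiff Topology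
open Set

namespace Vale.Agent.P204W88

open Vale.Agent.P204

variable {E : Type*} [NormedAddCommGroup E] [NormedSpace ℝ E] [FiniteDimensional ℝ E]

theorem contDiffAt_alt {Y : Type*} [NormedAddCommGroup Y] [NormedSpace ℝ Y]
    {f : Y → E [⋀^Fin 2]→L[ℝ] ℝ} {y : Y}
    (h : ∀ m : Fin 2 → E, ContDiffAt ℝ ∞ (fun z => f z m) y) : ContDiffAt ℝ ∞ f y := by
  let b := Module.finBasis ℝ E
  let Φ : (E [⋀^Fin 2]→L[ℝ] ℝ) →L[ℝ] ((Fin 2 → Fin (Module.finrank ℝ E)) → ℝ) :=
    ContinuousLinearMap.pi fun v => ContinuousAlternatingMap.apply ℝ E ℝ (fun i => b (v i))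
  have hΦ : Function.Injective Φ := by
    intro a a' haa
    apply ContinuousAlternatingMap.toAlternatingMap_injective
    refine Module.Basis.ext_alternating b fun v _ => ?_
    exact congrFun haa v
  obtain ⟨g, hg⟩ := ContinuousLinearMap.HasLeftInverse.of_injective_of_finiteDimensional hΦ
  have h1 : ContDiffAt ℝ ∞ (fun z => Φ (f z)) y := contDiffAt_pi.2 fun v => h _
  have h2 : f = fun z => g (Φ (f z)) := funext fun z => (hg _).symm
  rw [h2]
  exact g.contDiff.contDiffAt.comp y h1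

theorem contDiffAt_pull {Y : Type*} [NormedAddCommGroup Y] [NormedSpace ℝ Y]
    {α : Y → E [⋀^Fin 2]→L[ℝ] ℝ} {A : Y → E →L[ℝ] E} {y : Y}
    (hα : ContDiffAt ℝ ∞ α y) (hA : ContDiffAt ℝ ∞ A y) :
    ContDiffAt ℝ ∞ (fun z => (α z).compContinuousLinearMap (A z)) y := by
  refine contDiffAt_alt fun m => ?_
  have h1 : ContDiffAt ℝ ∞ (fun z => ((fun _ : Fin 2 => A z),
      (α z).toContinuousMultilinearMap)) y :=
    (contDiffAt_pi.2 fun _ => hA).prodMk
      ((ContinuousAlternatingMap.toContinuousMultilinearMapLI (𝕜 := ℝ) (E := E) (F := ℝ)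
        (ι := Fin 2)).toContinuousLinearMap.contDiff.contDiffAt.comp y hα)
  have h2 := (ContinuousMultilinearMap.analyticAt_uncurry_compContinuousLinearMap
    (𝕜 := ℝ) (Fm := fun _ : Fin 2 => E) (Em := fun _ : Fin 2 => E) (G := ℝ)
    (q := ((fun _ : Fin 2 => A y), (α y).toContinuousMultilinearMap))).contDiffAt (n := ∞)
  have h3 := h2.comp y h1
  exact (ContinuousMultilinearMap.apply ℝ (fun _ : Fin 2 => E) ℝ m).contDiff.contDiffAt.comp y h3

theorem minS : minSmoothness ℝ 2 ≤ (∞ : ℕ∞ω) := by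
  rw [minSmoothness_of_isRCLikeNormedField]
  exact ENat.LEInfty.out

variable {X : Type*} [TopologicalSpace X] [ChartedSpace E X] [IsManifold 𝓘(ℝ, E) ∞ X]

/-- derivative of the inverse of a chart -/
noncomputable def dS (e : OpenPartialHomeomorph X E) (y : E) : E →L[ℝ] E :=
  mfderiv 𝓘(ℝ, E) 𝓘(ℝ, E) e.symm y

/-- derivative of a chart -/
noncomputable def dC (e : OpenPartialHomeomorph X E) (x : X) : E →L[ℝ] E :=
  mfderiv 𝓘(ℝ, E) 𝓘(ℝ, E) e x

/-- a two-form, fibres read as the model space -/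
def omE (om : DC.TwoForm E X) (x : X) : E [⋀^Fin 2]→L[ℝ] ℝ := om x

/-- an endomorphism field, fibres read as the model space -/
def enE (J : DC.EndField E X) (x : X) : E →L[ℝ] E := J x

theorem pullForm_def (e : OpenPartialHomeomorph X E) (om : DC.TwoForm E X) (y : E) :
    DC.pullForm e.symm om y = (omE om (e.symm y)).compContinuousLinearMap (dS e y) := rfl

theorem endRep_def (e : OpenPartialHomeomorph X E) (J : DC.EndField E X) (y : E) :
    DC.endRep e J y = (dC e (e.symm y)).comp ((enE J (e.symm y)).comp (dS e y)) := rfl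

variable {e c : OpenPartialHomeomorph X E}

theorem sm_chart (he : e ∈ atlas E X) {x : X} (hx : x ∈ e.source) :
    ContMDiffAt 𝓘(ℝ, E) 𝓘(ℝ, E) ∞ e x :=
  contMDiffAt_of_mem_maximalAtlas (IsManifold.subset_maximalAtlas he) hx

theorem sm_symm (he : e ∈ atlas E X) {y : E} (hy : y ∈ e.target) :
    ContMDiffAt 𝓘(ℝ, E) 𝓘(ℝ, E) ∞ e.symm y :=
  contMDiffAt_symm_of_mem_maximalAtlas (IsManifold.subset_maximalAtlas he) hy

theorem sm_tau (he : e ∈ atlas E X) (hc : c ∈ atlas E X) {y : E} (hy : y ∈ e.target)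
    (hyc : e.symm y ∈ c.source) : ContDiffAt ℝ ∞ (c ∘ e.symm) y :=
  ((sm_chart hc hyc).comp y (sm_symm he hy)).contDiffAt

theorem dom_nhds {y : E} (hy : y ∈ e.target) (hyc : e.symm y ∈ c.source) :
    ∀ᶠ z in 𝓝 y, z ∈ e.target ∧ e.symm z ∈ c.source :=
  (e.isOpen_inter_preimage_symm c.open_source).mem_nhds ⟨hy, hyc⟩

theorem dS_eq (he : e ∈ atlas E X) (hc : c ∈ atlas E X) {y : E} (hy : y ∈ e.target)
    (hyc : e.symm y ∈ c.source) :
    dS e y = (dS c ((c ∘ e.symm) y)).comp (fderiv ℝ (c ∘ e.symm) y) := by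
  have h1 := mfderiv_comp (I := 𝓘(ℝ, E)) (I' := 𝓘(ℝ, E)) (I'' := 𝓘(ℝ, E)) y
    ((sm_symm hc (c.map_source hyc)).mdifferentiableAt (by simp))
    ((sm_tau he hc hy hyc).differentiableAt (by simp)).mdifferentiableAt
  have h2 : c.symm ∘ (c ∘ e.symm) =ᶠ[𝓝 y] e.symm := by
    filter_upwards [dom_nhds hy hyc] with w hw
    exact c.left_inv hw.2
  rw [h2.mfderiv_eq, mfderiv_eq_fderiv] at h1
  exact h1

theorem dC_eq (he : e ∈ atlas E X) (hc : c ∈ atlas E X) {x : X} (hx : x ∈ e.source)
    (hxc : x ∈ c.source) :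
    dC e x = (fderiv ℝ (e ∘ c.symm) (c x)).comp (dC c x) := by
  have h0 : ContDiffAt ℝ ∞ (e ∘ c.symm) (c x) :=
    sm_tau hc he (c.map_source hxc) (by rw [c.left_inv hxc]; exact hx)
  have h1 := mfderiv_comp (I := 𝓘(ℝ, E)) (I' := 𝓘(ℝ, E)) (I'' := 𝓘(ℝ, E)) x
    (h0.differentiableAt (by simp)).mdifferentiableAt
    ((sm_chart hc hxc).mdifferentiableAt (by simp))
  have h2 : (e ∘ c.symm) ∘ c =ᶠ[𝓝 x] e := by
    filter_upwards [c.open_source.mem_nhds hxc] with w hw
    exact congrArg e (c.left_inv hw)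
  rw [h2.mfderiv_eq, mfderiv_eq_fderiv] at h1
  exact h1

theorem pullForm_change (he : e ∈ atlas E X) (hc : c ∈ atlas E X) (om : DC.TwoForm E X) {y : E}
    (hy : y ∈ e.target) (hyc : e.symm y ∈ c.source) :
    DC.pullForm e.symm om y = (DC.pullForm c.symm om ((c ∘ e.symm) y)).compContinuousLinearMap
      (fderiv ℝ (c ∘ e.symm) y) := by
  rw [pullForm_def, pullForm_def, dS_eq he hc hy hyc]
  have : c.symm ((c ∘ e.symm) y) = e.symm y := c.left_inv hyc
  rw [this]
  rfl

theorem endRep_change (he : e ∈ atlas E X) (hc : c ∈ atlas E X) (J : DC.EndField E X) {y : E}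
    (hy : y ∈ e.target) (hyc : e.symm y ∈ c.source) :
    DC.endRep e J y = (fderiv ℝ (e ∘ c.symm) ((c ∘ e.symm) y)).comp
      ((DC.endRep c J ((c ∘ e.symm) y)).comp (fderiv ℝ (c ∘ e.symm) y)) := by
  rw [endRep_def, endRep_def, dS_eq he hc hy hyc, dC_eq he hc (e.map_target hy) hyc]
  have : c.symm ((c ∘ e.symm) y) = e.symm y := c.left_inv hyc
  rw [this]
  rfl

theorem smoothForm_of_centers {om : DC.TwoForm E X}
    (h : ∀ x, ContDiffAt ℝ ∞ (DC.pullForm (chartAt E x).symm om) (chartAt E x x)) :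
    DC.SmoothForm om := by
  intro e he y hy
  have hc := chart_mem_atlas E (e.symm y)
  have hyc := mem_chart_source E (e.symm y)
  refine ContDiffAt.contDiffWithinAt ?_
  have ht := sm_tau he hc hy hyc
  refine (contDiffAt_pull ((h (e.symm y)).comp y ht)
    (ht.fderiv_right (m := ∞) (by simp))).congr_of_eventuallyEq ?_
  filter_upwards [dom_nhds hy hyc] with w hw
  exact pullForm_change he hc om hw.1 hw.2

theorem closedForm_of_centers {om : DC.TwoForm E X} (hs : DC.SmoothForm om)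
    (h : ∀ x, extDeriv (DC.pullForm (chartAt E x).symm om) (chartAt E x x) = 0) :
    DC.ClosedForm om := by
  intro e he y hy
  have hc := chart_mem_atlas E (e.symm y)
  have hyc := mem_chart_source E (e.symm y)
  have ht := sm_tau he hc hy hyc
  have h1 : DC.pullForm e.symm om =ᶠ[𝓝 y] fun z =>
      (DC.pullForm (chartAt E (e.symm y)).symm om
        ((chartAt E (e.symm y) ∘ e.symm) z)).compContinuousLinearMap
      (fderiv ℝ (chartAt E (e.symm y) ∘ e.symm) z) := by
    filter_upwards [dom_nhds hy hyc] with w hw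
    exact pullForm_change he hc om hw.1 hw.2
  have hm := (chartAt E (e.symm y)).map_source hyc
  rw [h1.extDeriv_eq, extDeriv_pullback (r := ∞) _ ht minS]
  · have := h (e.symm y)
    rw [Function.comp_apply, this]
    ext m; rfl
  · exact ((hs _ hc _ hm).contDiffAt
      ((chartAt E (e.symm y)).open_target.mem_nhds hm)).differentiableAt (by simp)

theorem smoothEnd_of_centers {J : DC.EndField E X}
    (h : ∀ x, ContDiffAt ℝ ∞ (DC.endRep (chartAt E x) J) (chartAt E x x)) :
    ∀ e ∈ atlas E X, ContDiffOn ℝ ∞ (DC.endRep e J) e.target := by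
  intro e he y hy
  have hc := chart_mem_atlas E (e.symm y)
  have hyc := mem_chart_source E (e.symm y)
  refine ContDiffAt.contDiffWithinAt ?_
  have ht := sm_tau he hc hy hyc
  have hs : ContDiffAt ℝ ∞ (e ∘ (chartAt E (e.symm y)).symm)
      ((chartAt E (e.symm y) ∘ e.symm) y) :=
    sm_tau hc he ((chartAt E (e.symm y)).map_source hyc)
      (by rw [Function.comp_apply, (chartAt E (e.symm y)).left_inv hyc]; exact e.map_target hy)
  refine (((hs.fderiv_right (m := ∞) (by simp)).comp y ht).clm_comp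
    (((h (e.symm y)).comp y ht).clm_comp
      (ht.fderiv_right (m := ∞) (by simp)))).congr_of_eventuallyEq ?_
  filter_upwards [dom_nhds hy hyc] with w hw
  exact endRep_change he hc J hw.1 hw.2

end Vale.Agent.P204W88
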