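import Mathlib.Geometry.Manifold.VectorBundle.Hom
import Mathlib.Geometry.Manifold.VectorBundle.ContMDiffSection
import Mathlib.Geometry.Manifold.VectorField.LieBracket
import Mathlib.Geometry.Manifold.MFDeriv.NormedSpace
import Mathlib.Geometry.Manifold.Instances.Real
import Mathlib.Topology.VectorBundle.ContinuousAlternatingMap

/-!
# P204: Donaldson's question, with no coordinates

Vector fields, two-forms and endomorphism fields on a smooth manifold `X` modelled on `E` are
smooth sections of Mathlib's vector bundles `TX`, `Λ² T*X` (alternating maps) and `End TX`; the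
exterior derivative is the invariant formula, with Mathlib's Lie bracket of vector fields.
-/

open scoped Manifold ContDiff

namespace Vale.Agent.P204W88

/-- The model space `ℝ⁴`. -/
abbrev R4 := EuclideanSpace ℝ (Fin 4)

section Defs

variable (E : Type*) [NormedAddCommGroup E] [NormedSpace ℝ E]
  (X : Type*) [TopologicalSpace X] [ChartedSpace E X] [IsManifold 𝓘(ℝ, E) ∞ X]

/-- Smooth vector fields: smooth sections of the tangent bundle. -/
abbrev Vec := Cₛ^∞⟮𝓘(ℝ, E); E, fun x : X => TangentSpace 𝓘(ℝ, E) x⟯

/-- Smooth real two-forms: smooth sections of the bundle of alternating bilinear forms on the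
tangent spaces. -/
abbrev Form := Cₛ^∞⟮𝓘(ℝ, E); E [⋀^Fin 2]→L[ℝ] ℝ,
  fun x : X => TangentSpace 𝓘(ℝ, E) x [⋀^Fin 2]→L[ℝ] Bundle.Trivial X ℝ x⟯

/-- Smooth sections of the bundle of endomorphisms of the tangent spaces. -/
abbrev End := Cₛ^∞⟮𝓘(ℝ, E); E →L[ℝ] E,
  fun x : X => TangentSpace 𝓘(ℝ, E) x →L[ℝ] TangentSpace 𝓘(ℝ, E) x⟯

variable {E X}

/-- The value `om(u, v)` of a two-form on two tangent vectors at `x`. -/
noncomputable def val (om : Form E X) {x : X} (u v : TangentSpace 𝓘(ℝ, E) x) : ℝ :=
  om x ![u, v]

/-- The derivative `U(om(V, W))` at `x` of the function `om(V, W)` along the vector field `U`. -/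
noncomputable def der (om : Form E X) (U V W : Vec E X) (x : X) : ℝ :=
  mvfderiv 𝓘(ℝ, E) (fun y => val om (V y) (W y)) x (U x)

/-- The value `om([U, V], W)` at `x`, where `[U, V]` is the Lie bracket. -/
noncomputable def brk (om : Form E X) (U V W : Vec E X) (x : X) : ℝ :=
  val om (VectorField.mlieBracket 𝓘(ℝ, E) U V x) (W x)

/-- The exterior derivative `(d om)(U, V, W)` at `x`. -/
noncomputable def extD (om : Form E X) (U V W : Vec E X) (x : X) : ℝ :=
  der om U V W x - der om V U W x + der om W U V x
    - brk om U V W x + brk om U W V x - brk om V W U x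

/-- `J` is an almost complex structure: `J² = -id`. -/
def IsAlmostComplex (J : End E X) : Prop := ∀ x (v : TangentSpace 𝓘(ℝ, E) x), J x (J x v) = -v

/-- `om` is symplectic: `d om = 0` and `om` is nondegenerate. -/
structure IsSymplectic (om : Form E X) : Prop where
  closed : ∀ (U V W : Vec E X) (x : X), extD om U V W x = 0
  nondegenerate : ∀ x (v : TangentSpace 𝓘(ℝ, E) x), (∀ w, val om v w = 0) → v = 0

/-- `om` tames `J`: `om(v, Jv) > 0` for every nonzero tangent vector `v`. -/
def Tames (om : Form E X) (J : End E X) : Prop :=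
  ∀ x (v : TangentSpace 𝓘(ℝ, E) x), v ≠ 0 → 0 < val om v (J x v)

/-- `om` is compatible with `J`: it tames `J`, and `om(Ju, Jv) = om(u, v)`. -/
structure IsCompatible (om : Form E X) (J : End E X) : Prop where
  tames : Tames om J
  invariant : ∀ x (u v : TangentSpace 𝓘(ℝ, E) x), val om (J x u) (J x v) = val om u v

end Defs

end Vale.Agent.P204W88
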