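import Vale.Agent.P204W88.B1
import Vale.Agent.P204W88.Defs
import Mathlib.Geometry.Manifold.BumpFunction
import Mathlib.Geometry.Manifold.VectorBundle.MDifferentiable

/-!
# P204W88: smooth sections versus expressions in charts
-/

set_option linter.unusedSectionVars false

open scoped Manifold ContDiff Topology
open Set Bundle

namespace Vale.Agent.P204W88

open Vale.Agent.P204

variable {X : Type*} [TopologicalSpace X] [ChartedSpace R4 X] [IsManifold (𝓡 4) ∞ X]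

theorem symmL_eq {x₀ x : X} (hx : x ∈ (chartAt R4 x₀).source) :
    ((trivializationAt R4 (TangentSpace (𝓡 4)) x₀).symmL ℝ x : R4 →L[ℝ] R4) =
      dS (chartAt R4 x₀) (chartAt R4 x₀ x) := by
  rw [TangentBundle.symmL_trivializationAt hx]
  simp only [modelWithCornersSelf_coe, range_id, mfderivWithin_univ]
  rfl

theorem clmAt_eq {x₀ x : X} (hx : x ∈ (chartAt R4 x₀).source) :
    ((trivializationAt R4 (TangentSpace (𝓡 4)) x₀).continuousLinearMapAt ℝ x : R4 →L[ℝ] R4) =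
      dC (chartAt R4 x₀) x := by
  rw [TangentBundle.continuousLinearMapAt_trivializationAt hx]
  rfl

theorem contMDiffAt_iff_center {F : Type*} [NormedAddCommGroup F] [NormedSpace ℝ F] {x₀ : X}
    {f : X → F} {g : R4 → F} (h : ∀ x ∈ (chartAt R4 x₀).source, f x = g (chartAt R4 x₀ x)) :
    ContMDiffAt (𝓡 4) 𝓘(ℝ, F) ∞ f x₀ ↔ ContDiffAt ℝ ∞ g (chartAt R4 x₀ x₀) := by
  have hc := chart_mem_atlas R4 x₀
  have hx := mem_chart_source R4 x₀
  have hm := (chartAt R4 x₀).map_source hx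
  constructor
  · intro hf
    have h1 : ContMDiffAt (𝓡 4) 𝓘(ℝ, F) ∞ f ((chartAt R4 x₀).symm (chartAt R4 x₀ x₀)) := by
      rw [(chartAt R4 x₀).left_inv hx]; exact hf
    refine (h1.comp _ (sm_symm hc hm)).contDiffAt.congr_of_eventuallyEq ?_
    filter_upwards [(chartAt R4 x₀).open_target.mem_nhds hm] with y hy
    rw [Function.comp_apply, h _ ((chartAt R4 x₀).map_target hy), (chartAt R4 x₀).right_inv hy]
  · intro hg
    refine (hg.contMDiffAt.comp x₀ (sm_chart hc hx)).congr_of_eventuallyEq ?_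
    filter_upwards [(chartAt R4 x₀).open_source.mem_nhds hx] with x hx'
    exact h x hx'

theorem form_section_iff (om : DC.TwoForm R4 X) (x₀ : X) :
    ContMDiffAt (𝓡 4) ((𝓡 4).prod 𝓘(ℝ, R4 [⋀^Fin 2]→L[ℝ] ℝ)) ∞
      (fun x => TotalSpace.mk' (R4 [⋀^Fin 2]→L[ℝ] ℝ)
        (E := fun x : X => TangentSpace (𝓡 4) x [⋀^Fin 2]→L[ℝ] Bundle.Trivial X ℝ x) x (om x)) x₀ ↔
      ContDiffAt ℝ ∞ (DC.pullForm (chartAt R4 x₀).symm om) (chartAt R4 x₀ x₀) := by
  rw [Bundle.contMDiffAt_section]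
  refine contMDiffAt_iff_center fun x hx => ?_
  rw [FiberBundle.trivializationAt_continuousAlternatingMap_apply, pullForm_def,
    (chartAt R4 x₀).left_inv hx, ← symmL_eq hx]
  ext m
  simp [ContinuousAlternatingMap.inCoordinates, omE]
  rfl

theorem end_section_iff (J : DC.EndField R4 X) (x₀ : X) :
    ContMDiffAt (𝓡 4) ((𝓡 4).prod 𝓘(ℝ, R4 →L[ℝ] R4)) ∞
      (fun x => TotalSpace.mk' (R4 →L[ℝ] R4)
        (E := fun x : X => TangentSpace (𝓡 4) x →L[ℝ] TangentSpace (𝓡 4) x) x (J x)) x₀ ↔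
      ContDiffAt ℝ ∞ (DC.endRep (chartAt R4 x₀) J) (chartAt R4 x₀ x₀) := by
  rw [Bundle.contMDiffAt_section]
  refine contMDiffAt_iff_center fun x hx => ?_
  rw [endRep_def, (chartAt R4 x₀).left_inv hx, ← symmL_eq hx, ← clmAt_eq hx]
  rfl

theorem exists_vec [T2Space X] (x : X) (v : TangentSpace (𝓡 4) x) : ∃ U : Vec R4 X, U x = v := by
  obtain ⟨s, hs, hσ⟩ := FiberBundle.exists_contMDiffOn_extend (k := ∞) (𝓡 4) R4
    (V := fun y : X => TangentSpace (𝓡 4) y) v
  obtain ⟨χ, -, hχ⟩ := (SmoothBumpFunction.nhds_basis_tsupport (I := 𝓡 4) x).mem_iff.mp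
    (interior_mem_nhds.mpr hs)
  have h : ContMDiff (𝓡 4) ((𝓡 4).prod 𝓘(ℝ, R4)) ∞
      (fun y => (⟨y, χ y • FiberBundle.extend R4 v y⟩ : TangentBundle (𝓡 4) X)) := by
    refine ContMDiffOn.smul_section_of_tsupport ?_ isOpen_interior hχ (hσ.mono interior_subset)
    exact χ.contMDiff.contMDiffOn
  refine ⟨⟨fun y => χ y • FiberBundle.extend R4 v y, h⟩, ?_⟩
  change χ x • FiberBundle.extend R4 v x = v
  rw [χ.eq_one, one_smul, FiberBundle.extend_apply_self]

end Vale.Agent.P204W88
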