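import Vale.Agent.P204W88.B2
import Mathlib.Analysis.Calculus.FDeriv.ContinuousAlternatingMap

/-!
# P204W88: the invariant formula is the exterior derivative in a chart
-/

set_option linter.unusedSectionVars false

open scoped Manifold ContDiff Topology
open Set Bundle VectorField

namespace Vale.Agent.P204W88

open Vale.Agent.P204

theorem comp2 (A : R4 [⋀^Fin 2]→L[ℝ] ℝ) (L : R4 →L[ℝ] R4) (v w : R4) :
    A.compContinuousLinearMap L ![v, w] = A ![L v, L w] := by
  show A (L ∘ ![v, w]) = _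
  congr 1
  funext i; fin_cases i <;> rfl

theorem extDeriv_three {α : R4 → R4 [⋀^Fin 2]→L[ℝ] ℝ} {U V W : R4 → R4} {y : R4}
    (hα : DifferentiableAt ℝ α y) (hU : DifferentiableAt ℝ U y) (hV : DifferentiableAt ℝ V y)
    (hW : DifferentiableAt ℝ W y) :
    extDeriv α y ![U y, V y, W y] =
      fderiv ℝ (fun z => α z ![V z, W z]) y (U y) - fderiv ℝ (fun z => α z ![U z, W z]) y (V y)
        + fderiv ℝ (fun z => α z ![U z, V z]) y (W y)
        - α y ![lieBracket ℝ U V y, W y] + α y ![lieBracket ℝ U W y, V y]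
        - α y ![lieBracket ℝ V W y, U y] := by
  have h := extDeriv_apply_vectorField (n := 1) (V := ![U, V, W]) hα
    (fun i => by fin_cases i <;> assumption)
  have e0 : (fun i => (![U, V, W] : Fin 3 → R4 → R4) i y) = ![U y, V y, W y] := by
    funext i; fin_cases i <;> rfl
  have a0 : ∀ z, Fin.removeNth (0 : Fin 3) (fun i => (![U, V, W] : Fin 3 → R4 → R4) i z)
      = ![V z, W z] := fun z => by funext i; fin_cases i <;> rfl
  have a1 : ∀ z, Fin.removeNth (1 : Fin 3) (fun i => (![U, V, W] : Fin 3 → R4 → R4) i z)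
      = ![U z, W z] := fun z => by funext i; fin_cases i <;> rfl
  have a2 : ∀ z, Fin.removeNth (2 : Fin 3) (fun i => (![U, V, W] : Fin 3 → R4 → R4) i z)
      = ![U z, V z] := fun z => by funext i; fin_cases i <;> rfl
  have s0 : (Finset.Ici (0 : Fin 2)) = {0, 1} := by decide
  have s1 : (Finset.Ici (1 : Fin 2)) = {1} := by decide
  have b0 : Fin.removeNth (0 : Fin 2) (![V y, W y] : Fin 2 → R4) = ![W y] := by
    funext i; fin_cases i; rfl
  have b1 : Fin.removeNth (1 : Fin 2) (![V y, W y] : Fin 2 → R4) = ![V y] := by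
    funext i; fin_cases i; rfl
  have b2 : Fin.removeNth (1 : Fin 2) (![U y, W y] : Fin 2 → R4) = ![U y] := by
    funext i; fin_cases i; rfl
  rw [Fin.sum_univ_three, Fin.sum_univ_two] at h
  simp only [s0, s1] at h
  rw [Finset.sum_pair (by decide), Finset.sum_singleton] at h
  have c0 : (Fin.castSucc (0 : Fin 2)) = (0 : Fin 3) := rfl
  have c1 : (Fin.castSucc (1 : Fin 2)) = (1 : Fin 3) := rfl
  have d0 : (Fin.succ (0 : Fin 2)) = (1 : Fin 3) := rfl
  have d1 : (Fin.succ (1 : Fin 2)) = (2 : Fin 3) := rfl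
  simp only [c0, c1, d0, d1, a0, a1, a2, b0, b1, b2] at h
  rw [e0] at h
  rw [h]
  simp
  ring

variable {X : Type*} [TopologicalSpace X] [ChartedSpace R4 X] [IsManifold (𝓡 4) ∞ X]

/-- a vector field, fibres read as the model space -/
def vE (U : ∀ x : X, TangentSpace (𝓡 4) x) (x : X) : R4 := U x

/-- a vector field read in a chart -/
noncomputable def pb (c : OpenPartialHomeomorph X R4) (U : ∀ x : X, TangentSpace (𝓡 4) x)
    (z : R4) : R4 :=
  mpullback (𝓡 4) (𝓡 4) c.symm U z

variable {c : OpenPartialHomeomorph X R4}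

theorem dS_inv (hc : c ∈ atlas R4 X) {z : R4} (hz : z ∈ c.target) :
    (mfderiv (𝓡 4) (𝓡 4) c.symm z).IsInvertible :=
  ⟨(mdifferentiable_of_mem_atlas (I := 𝓡 4) hc).symm.mfderiv hz, rfl⟩

theorem dS_pb (hc : c ∈ atlas R4 X) (U : ∀ x : X, TangentSpace (𝓡 4) x) {z : R4}
    (hz : z ∈ c.target) : dS c z (pb c U z) = vE U (c.symm z) :=
  (dS_inv hc hz).self_apply_inverse _

theorem dC_dS (hc : c ∈ atlas R4 X) {z : R4} (hz : z ∈ c.target) (v : R4) :
    dC c (c.symm z) (dS c z v) = v :=
  congrArg (fun L : R4 →L[ℝ] R4 => L v)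
    ((mdifferentiable_of_mem_atlas (I := 𝓡 4) hc).comp_symm_deriv hz)

theorem dC_vE (hc : c ∈ atlas R4 X) (U : ∀ x : X, TangentSpace (𝓡 4) x) {x : X}
    (hx : x ∈ c.source) : dC c x (vE U x) = pb c U (c x) := by
  have h := dC_dS hc (c.map_source hx) (pb c U (c x))
  rwa [dS_pb hc U (c.map_source hx), c.left_inv hx] at h

theorem pb_diff (hc : c ∈ atlas R4 X) (U : Vec R4 X) {z : R4} (hz : z ∈ c.target) :
    DifferentiableAt ℝ (pb c U) z := by
  have h := ContMDiffAt.mpullback_vectorField_preimage (m := ∞) (n := ∞)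
    (U.contMDiff (c.symm z)) (sm_symm hc hz) (dS_inv hc hz) (by simp)
  exact (contMDiffAt_vectorSpace_iff_contDiffAt.1 h).differentiableAt (by simp)

theorem val_eq (hc : c ∈ atlas R4 X) (om : Form R4 X) (V W : ∀ x : X, TangentSpace (𝓡 4) x) {x : X}
    (hx : x ∈ c.source) :
    val om (V x) (W x) = DC.pullForm c.symm om (c x) ![pb c V (c x), pb c W (c x)] := by
  rw [pullForm_def, comp2, dS_pb hc V (c.map_source hx), dS_pb hc W (c.map_source hx),
    c.left_inv hx]
  rfl

theorem der_eq (hc : c ∈ atlas R4 X) (om : Form R4 X) (U V W : Vec R4 X) {x : X} (hx : x ∈ c.source)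
    (hα : DifferentiableAt ℝ (DC.pullForm c.symm om) (c x)) :
    der om U V W x = fderiv ℝ (fun z => DC.pullForm c.symm om z ![pb c V z, pb c W z]) (c x)
      (pb c U (c x)) := by
  have hm := c.map_source hx
  have hg : DifferentiableAt ℝ (fun z => DC.pullForm c.symm om z ![pb c V z, pb c W z]) (c x) := by
    have := hα.continuousAlternatingMap_apply (g := ![pb c V, pb c W])
      (fun i => by fin_cases i; exacts [pb_diff hc V hm, pb_diff hc W hm])
    refine this.congr_of_eventuallyEq (Filter.Eventually.of_forall fun z => ?_)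
    simp only
    congr 1
    funext i; fin_cases i <;> rfl
  have h1 := mfderiv_comp (I := 𝓡 4) (I' := 𝓡 4) (I'' := 𝓘(ℝ, ℝ)) x
    hg.mdifferentiableAt ((sm_chart hc hx).mdifferentiableAt (by simp))
  have h2 : (fun z => DC.pullForm c.symm om z ![pb c V z, pb c W z]) ∘ c =ᶠ[𝓝 x]
      fun y => val om (V y) (W y) := by
    filter_upwards [c.open_source.mem_nhds hx] with w hw
    exact (val_eq hc om V W hw).symm
  rw [h2.mfderiv_eq, mfderiv_eq_fderiv] at h1
  rw [← dC_vE hc U hx]
  exact congrArg (fun L : R4 →L[ℝ] ℝ => L (vE U x)) h1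

theorem brk_eq (hc : c ∈ atlas R4 X) (om : Form R4 X) (U V W : Vec R4 X) {x : X} (hx : x ∈ c.source) :
    brk om U V W x = DC.pullForm c.symm om (c x)
      ![lieBracket ℝ (pb c U) (pb c V) (c x), pb c W (c x)] := by
  have hm := c.map_source hx
  haveI : IsManifold (𝓡 4) (minSmoothness ℝ 2) X := IsManifold.of_le minS
  have h := mpullback_mlieBracket (I := 𝓡 4) (I' := 𝓡 4) (f := c.symm) (V := U) (W := V)
    (x₀ := c x) ((U.contMDiff _).mdifferentiableAt (by simp))
    ((V.contMDiff _).mdifferentiableAt (by simp)) (sm_symm hc hm) minS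
  rw [← mlieBracketWithin_univ (V := mpullback (𝓡 4) (𝓡 4) c.symm U),
    mlieBracketWithin_eq_lieBracketWithin] at h
  have h' : pb c (mlieBracket (𝓡 4) U V) (c x) =
      lieBracketWithin ℝ (pb c U) (pb c V) univ (c x) := h
  rw [lieBracketWithin_univ] at h'
  rw [← h']
  exact val_eq hc om (mlieBracket (𝓡 4) U V) W hx

theorem extD_eq (hc : c ∈ atlas R4 X) (om : Form R4 X) (U V W : Vec R4 X) {x : X} (hx : x ∈ c.source)
    (hα : DifferentiableAt ℝ (DC.pullForm c.symm om) (c x)) :
    extD om U V W x = extDeriv (DC.pullForm c.symm om) (c x)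
      ![pb c U (c x), pb c V (c x), pb c W (c x)] := by
  have hm := c.map_source hx
  rw [extDeriv_three hα (pb_diff hc U hm) (pb_diff hc V hm) (pb_diff hc W hm), extD,
    der_eq hc om U V W hx hα, der_eq hc om V U W hx hα, der_eq hc om W U V hx hα,
    brk_eq hc om U V W hx, brk_eq hc om U W V hx, brk_eq hc om V W U hx]

end Vale.Agent.P204W88
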