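import Vale.Agent.P204W88.B3
import Vale.Agent.P204.Bdl.B8

/-!
# P204W88: Donaldson's question for smooth sections
-/

set_option linter.unusedSectionVars false

open scoped Manifold ContDiff Topology
open Set Bundle VectorField

namespace Vale.Agent.P204W88

open Vale.Agent.P204

section

variable {X : Type*} [TopologicalSpace X] [ChartedSpace R4 X] [IsManifold (𝓡 4) ∞ X]

theorem smoothForm (om : Form R4 X) : DC.SmoothForm (E := R4) (X := X) om :=
  smoothForm_of_centers fun x => (form_section_iff om x).1 (om.contMDiff x)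

theorem diff_center (om : Form R4 X) (x : X) :
    DifferentiableAt ℝ (DC.pullForm (chartAt R4 x).symm om) (chartAt R4 x x) :=
  ((form_section_iff om x).1 (om.contMDiff x)).differentiableAt (by simp)

theorem closedForm [T2Space X] {om : Form R4 X} (h : ∀ (U V W : Vec R4 X) (x : X), extD om U V W x = 0) :
    DC.ClosedForm (E := R4) (X := X) om := by
  refine closedForm_of_centers (smoothForm om) fun x => ?_
  have hc := chart_mem_atlas R4 x
  have hx := mem_chart_source R4 x
  have hm := (chartAt R4 x).map_source hx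
  have hs : ∀ v : R4, ∃ U : Vec R4 X, pb (chartAt R4 x) U (chartAt R4 x x) = v := by
    intro v
    obtain ⟨U, hU⟩ := exists_vec x (dS (chartAt R4 x) (chartAt R4 x x) v)
    refine ⟨U, ?_⟩
    have h1 := dC_dS hc hm v
    rw [(chartAt R4 x).left_inv hx] at h1
    rw [← dC_vE hc U hx, ← h1]
    exact congrArg _ hU
  ext m
  obtain ⟨U, hU⟩ := hs (m 0)
  obtain ⟨V, hV⟩ := hs (m 1)
  obtain ⟨W, hW⟩ := hs (m 2)
  have h1 := extD_eq hc om U V W hx (diff_center om x)
  rw [h U V W x, hU, hV, hW] at h1
  have h2 : m = ![m 0, m 1, m 2] := by funext i; fin_cases i <;> rfl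
  rw [h2, ← h1]
  rfl

theorem extD_zero {om : Form R4 X} (h : DC.ClosedForm (E := R4) (X := X) om) (U V W : Vec R4 X)
    (x : X) : extD om U V W x = 0 := by
  have hc := chart_mem_atlas R4 x
  have hx := mem_chart_source R4 x
  rw [extD_eq hc om U V W hx (diff_center om x), h _ hc _ ((chartAt R4 x).map_source hx)]
  rfl

/-- the smooth section given by a form which is smooth in all charts -/
def toForm (om : DC.TwoForm R4 X) (h : DC.SmoothForm om) : Form R4 X :=
  ⟨om, fun x => (form_section_iff om x).2
    ((h _ (chart_mem_atlas R4 x) _ ((chartAt R4 x).map_source (mem_chart_source R4 x))).contDiffAt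
      ((chartAt R4 x).open_target.mem_nhds ((chartAt R4 x).map_source (mem_chart_source R4 x))))⟩

end

theorem main.{u} (X : Type u) [TopologicalSpace X] [ChartedSpace R4 X] [IsManifold (𝓡 4) ∞ X]
    [CompactSpace X] [T2Space X] [ConnectedSpace X] (J : End R4 X) (hJ : IsAlmostComplex J)
    (h : ∃ om : Form R4 X, IsSymplectic om ∧ Tames om J) :
    ∃ om : Form R4 X, IsSymplectic om ∧ IsCompatible om J := by
  obtain ⟨om, hs, ht⟩ := h
  obtain ⟨o, ho, hc⟩ := DC.main GX.sysStatementB X J
    ⟨smoothEnd_of_centers fun x => (end_section_iff J x).1 (J.contMDiff x), hJ⟩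
    ⟨om, ⟨smoothForm om, closedForm hs.closed, hs.nondegenerate⟩, ht⟩
  exact ⟨toForm o ho.smooth, ⟨extD_zero ho.closed, ho.nondegenerate⟩, hc.tames, hc.invariant⟩

end Vale.Agent.P204W88
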